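import Vale.Agent.P366.H222.K.RefC

namespace Vale.Agent.Results.P366.KerrSchild
open Vale.Agent.P366 Vale.Agent.P366.Kerr

/-- The sharp spacetime Penrose inequality with `P ≠ 0`, in every dimension `n ≥ 3`, for the
hypersurfaces `D'` of Kerr-Schild spacetimes over Minkowski space, with a general null covector
field `l`, and for all exteriors `D` which coincide with `D'` on an enclosing cut `S`, the boundary
of `D'`, and for large `|y|` (`D = D'` is allowed); no symmetry. It holds with the area `|S|`, which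
is at least `A_min`. Equality for `l = d(t + λ)`: only if `D'` is a slice of a
Schwarzschild-Tangherlini spacetime. -/
theorem result (n : ℕ) (hn : 3 ≤ n) (C : NullCone n)
    (l : Fin (n + 1) → Stmt.E (n + 1) → ℝ) (V : Stmt.E (n + 1) → ℝ) (f f₁ : Stmt.E n → ℝ)
    (D D' : Stmt.Exterior n) (hO : IsCut D' D) (hS : IsSliceL C l V f D')
    (hD : HasDEC C l V f f₁ D') (hT : D'.Trapped) (hAF : D.IsAF) (m : ℝ) (P : Fin n → ℝ)
    (hm : D.IsEnergy m) (hP : D.IsMomentum P) :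
    (D.Amin ≤ D.area D'.F ∧ D.area D'.F ≠ ⊤ ∧ √(∑ i, P i ^ 2) < m ∧
      (D.Amin.toReal / Stmt.omega n) ^ (((n : ℝ) - 2) / ((n : ℝ) - 1)) / 2 ≤
        ((D.area D'.F).toReal / Stmt.omega n) ^ (((n : ℝ) - 2) / ((n : ℝ) - 1)) / 2 ∧
      ((D.area D'.F).toReal / Stmt.omega n) ^ (((n : ℝ) - 2) / ((n : ℝ) - 1)) / 2 ≤
        √(m ^ 2 - ∑ i, P i ^ 2)) ∧
    ∀ lam : Stmt.E n → ℝ, IsGradient C lam l f D' → HasDEC C l V f f D' →
      ((D.area D'.F).toReal / Stmt.omega n) ^ (((n : ℝ) - 2) / ((n : ℝ) - 1)) / 2 =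
        √(m ^ 2 - ∑ i, P i ^ 2) → ∃ c r₀, IsSchwSlice c r₀ f D' :=
  haveI : Fact (3 ≤ n) := ⟨hn⟩
  KSR.st_mainC hS hD hT hO hAF hm hP

end Vale.Agent.Results.P366.KerrSchild
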