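import Vale.Agent.P366.H222.K.RefC

namespace Vale.Agent.Results.P366.KerrSchildData
open Vale.Agent.P366 Vale.Agent.P366.Kerr

/-- The sharp Penrose inequality, in every dimension `n ≥ 3`, for exterior data `D' = (Ω, g, K)`
with the dominant energy condition `μ ≥ |J|` and the metric `g` of a hypersurface
`D₀ = (Ω, g, K₀)` of a Kerr-Schild spacetime over Minkowski space, and for all exteriors `D` which
coincide with `D'` on an enclosing cut `S`, the boundary of `D'`, and for large `|y|` (`D = D'` is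
allowed). The tensor `K` is only subject to inequalities; no symmetry. The energy is measured in
the frame of `ξ`; in the rest frame it is the mass. It holds with the area `|S|`, which is at least
`A_min`. Equality in the rest frame for `l = d(t + λ)`: only if `D'` is a slice of a
Schwarzschild-Tangherlini spacetime. -/
theorem result (n : ℕ) (hn : 3 ≤ n) (C : NullCone n)
    (l : Fin (n + 1) → Stmt.E (n + 1) → ℝ) (V : Stmt.E (n + 1) → ℝ) (f : Stmt.E n → ℝ)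
    (D D' D₀ : Stmt.Exterior n) (hO : IsCut D' D) (hS : IsSliceL C l V f D₀)
    (hA₀ : D₀.IsAF) (ξ : Fin (n + 1) → ℝ) (hξ : IsFut ξ) (hR : IsRefH l V f ξ D₀ D')
    (hT : D'.Trapped) (hAF : D.IsAF) (m : ℝ) (P : Fin n → ℝ) (hm : D.IsEnergy m)
    (hP : D.IsMomentum P) :
    (D.Amin ≤ D.area D'.F ∧ D.area D'.F ≠ ⊤ ∧
      (D.Amin.toReal / Stmt.omega n) ^ (((n : ℝ) - 2) / ((n : ℝ) - 1)) / 2 ≤
        ((D.area D'.F).toReal / Stmt.omega n) ^ (((n : ℝ) - 2) / ((n : ℝ) - 1)) / 2 ∧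
      ((D.area D'.F).toReal / Stmt.omega n) ^ (((n : ℝ) - 2) / ((n : ℝ) - 1)) / 2 ≤
        (ξ 0 * m + ∑ i : Fin n, ξ i.succ * P i) / √(ξ 0 ^ 2 - ∑ i : Fin n, ξ i.succ ^ 2)) ∧
    ((∀ i, ξ 0 * P i = -(ξ i.succ * m)) → √(∑ i, P i ^ 2) < m ∧
      ((D.area D'.F).toReal / Stmt.omega n) ^ (((n : ℝ) - 2) / ((n : ℝ) - 1)) / 2 ≤
        √(m ^ 2 - ∑ i, P i ^ 2) ∧
      ∀ lam : Stmt.E n → ℝ, IsGradient C lam l f D' → IsStrictH l V f ξ D₀ D' →
        ((D.area D'.F).toReal / Stmt.omega n) ^ (((n : ℝ) - 2) / ((n : ℝ) - 1)) / 2 =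
          √(m ^ 2 - ∑ i, P i ^ 2) → ∃ c r₀, IsSchwSlice c r₀ f D') :=
  haveI : Fact (3 ≤ n) := ⟨hn⟩
  KSR.ref_mainC hS hA₀ hξ hR hT hO hAF hm hP

end Vale.Agent.Results.P366.KerrSchildData
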