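import Vale.Agent.P366.H745.Eq7
import Vale.Agent.P366.H745.N2e

/-! The Penrose inequality for null shells in Minkowski space, with its equality case. -/

noncomputable section
namespace Vale.Agent.Results.P366.MinkowskiNullShell

open Vale.Agent.P366.Shell

/-- Let `S` be a closed spacelike surface of dimension `n - 1` in the Minkowski space `ℝ^{1,n}`
whose past null hypersurface is regular, and let `L` be its outgoing future null normal. Then the
vector `(E, P) = (1 / (2 (n - 1) ω)) ∫_S θ_L k dA` satisfies `|P| < E` and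
`(1/2) (|S| / ω) ^ ((n - 2) / (n - 1)) ≤ √(E² - |P|²)`. Equality holds if and only if `S` is a round
sphere `{q | ⟨q - p, e⟩ = 0, ⟨q - p, q - p⟩ = r²}` in a spacelike hyperplane (`⟨e, e⟩ = -1`). -/
theorem result (n : ℕ) (hn : 3 ≤ n) (X : E n → Vec n) (hX : IsSurface X) :
    (∃ L, IsNormal X L) ∧ ∀ L, IsNormal X L →
      √(∑ i : Fin n, mom X L i.succ ^ 2) < mom X L 0 ∧
        1 / 2 * (area X / omega n) ^ (((n : ℝ) - 2) / ((n : ℝ) - 1)) ≤
          √(mom X L 0 ^ 2 - ∑ i : Fin n, mom X L i.succ ^ 2) ∧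
        (1 / 2 * (area X / omega n) ^ (((n : ℝ) - 2) / ((n : ℝ) - 1)) =
            √(mom X L 0 ^ 2 - ∑ i : Fin n, mom X L i.succ ^ 2) ↔
          ∃ (p e : Vec n) (r : ℝ), 0 < r ∧ mink e e = -1 ∧
            X '' {x | x ≠ 0} = {q | mink (q - p) e = 0 ∧ mink (q - p) (q - p) = r ^ 2}) := by
  have : Fact (3 ≤ n) := ⟨hn⟩
  refine ⟨exists_normal hX, fun L hL => ⟨(ineq hn hX hL).1, (ineq hn hX hL).2,
    fun h => eq_round hX hL h, ?_⟩⟩
  rintro ⟨p, e, r, hr, he, hi⟩
  refine round_eq (p := p) hX hL hr he fun x hx => ?_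
  have h1 : X x ∈ X '' {x | x ≠ 0} := ⟨x, hx, rfl⟩
  rw [hi] at h1
  exact h1

end Vale.Agent.Results.P366.MinkowskiNullShell
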